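import Vale.Agent.P114.Main

/-!
# Exact overlaps of homogeneous systems at transcendental contractions

Separation of the parameters with entropy drop, and lower semicontinuity of the random-walk
entropy rate.
-/

namespace Vale.Agent.Results.P114.OverlapSeparation

open Vale.Agent.P114

theorem result :
    (∀ (ι : Type) [Fintype ι] (a b : ι → ℤ) (p : ι → ℝ), (∀ i, 0 < p i) → ∑ i, p i = 1 →
      ∀ lam t : ℝ, 0 < lam → lam < 1 → Transcendental ℚ lam →
      ∀ η : ℝ, η < hRW a b p lam t →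
      ∃ ε : ℝ, 0 < ε ∧ ∀ lam' t' : ℝ, Transcendental ℚ lam' → |lam' - lam| < ε →
        |t' - t| < ε → η < hRW a b p lam' t') ∧
    (∀ p : Fin 3 → ℝ, (∀ i, 0 < p i) → ∑ i, p i = 1 →
      ∀ lam : ℝ, 0 < lam → lam < 1 → Transcendental ℚ lam →
      ∀ η : ℝ, η < ∑ i, Real.negMulLog (p i) →
      ∃ c : ℝ, 0 < c ∧ ∃ C : ℕ, ∀ (t t' : ℝ) (n n' : ℕ), 1 ≤ n → 1 ≤ n' →
        walkEntropy ![0, 1, 0] ![0, 0, 1] p lam t n ≤ η * n →
        walkEntropy ![0, 1, 0] ![0, 0, 1] p lam t' n' ≤ η * n' → t ≠ t' →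
        c * lam ^ (C * (n + n')) ≤ |t - t'|) :=
  ⟨fun _ _ a b p hp hp1 _ _ h0 h1 ht η hη =>
      entropy_rate_lsc a b p (fun i => (hp i).le) hp1 h0 h1 ht η hη,
    fun p hp hp1 _ h0 h1 ht η hη => separation h0 h1 ht p (fun i => (hp i).le) hp1 η hη⟩

end Vale.Agent.Results.P114.OverlapSeparation
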