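import Vale.Agent.P114.Dim.Near

/-!
# Entropy-rate dimension formula at small contraction
-/

namespace Vale.Agent.Results.P114.SmallContractionDimension

open Vale.Agent.P114 MeasureTheory

theorem result (ι : Type) [Fintype ι] (a b : ι → ℤ)
    (hab : Function.Injective (fun i => (a i, b i))) (p : ι → ℝ) (hp : ∀ i, 0 < p i)
    (h1 : ∑ i, p i = 1) (ε : ℝ) (hε : 0 < ε) :
    ∃ lam0 : ℝ, 0 < lam0 ∧ ∀ lam : ℝ, 0 < lam → lam < lam0 → ∀ t : ℝ,
      (∃ μ : Measure ℝ, IsProbabilityMeasure μ ∧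
        μ = ∑ i, ENNReal.ofReal (p i) •
          μ.map (fun x => lam * x + ((a i : ℝ) + (b i : ℝ) * t))) ∧
      ∀ μ : Measure ℝ, IsProbabilityMeasure μ →
        μ = ∑ i, ENNReal.ofReal (p i) •
          μ.map (fun x => lam * x + ((a i : ℝ) + (b i : ℝ) * t)) →
        ENNReal.ofReal
            (min (hRW a b p lam t) ((∑ i, Real.negMulLog (p i)) - ε) / -Real.log lam) ≤
          (⨅ (E : Set ℝ) (_ : MeasurableSet E) (_ : 0 < μ E), dimH E) ∧
        (⨅ (E : Set ℝ) (_ : MeasurableSet E) (_ : 0 < μ E), dimH E) ≤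
          ENNReal.ofReal (min 1 (hRW a b p lam t / -Real.log lam)) :=
  dimension_near a b hab hp h1 hε

end Vale.Agent.Results.P114.SmallContractionDimension
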